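import Vale.Agent.P141.H408.SkelTI2
import Vale.Agent.P141.H228.GaugeI
import Vale.Agent.P141.H401.CutUV

/-!
# P141, line (A): the increasing part, skeleton in the gauge of `H228.GaugeI`

The data may be those with the dense fibres of `u` and `v` cut off (`FibU`, `FibP`).

* `PairU` : quantifiers of the number leaves, the fibres may be used; `PairQ.toU`;
* `LCapG`, `LABg`, `LCAu`, `LBCg`, `LCA1u`, `LBC1g` : the leaves;
* `AllG`, `all_leavesG` : all leaves at one class.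
-/

namespace Vale.Agent.P141.H408

open Finset Matrix
open Vale.Agent.P141.PL (Pt iv cx)
open Vale.Agent.P141.PL.H315 (Tri)
open Vale.Agent.P141.H48 (US ES BSl)
open Vale.Agent.P141.H305 (ClsM kapM)
open Vale.Agent.P141.H401 (StQ PartQ PartY CSt cA cb mC FibU FibP)
open Vale.Agent.P141.H228.Gauge (PABg PBCg CapsG)

noncomputable section

open scoped Classical

/-- **Numbers of the cut families, data with small fibres.** -/
def PairU (Φ : StQ) : Prop := PairQ fun ι _ _ p n ez F1 F2 F3 o K x s r U g u v Q1 Q2 Q3 X =>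
  FibU p K x s r U u → FibP p K x s r U v →
    Φ ι p n ez F1 F2 F3 o K x s r U g u v Q1 Q2 Q3 X

theorem PairQ.imp {Φ Ψ : StQ} (H : PairQ Φ)
    (h : ∀ (ι : Type) [Fintype ι] [DecidableEq ι] (p : H401.Num) (n : ℕ) (ez : ℝ)
      (F1 F2 F3 : ℕ → Pt → ℝ) (o : ℤ) (K : ℕ) (x : Pt) (s r : ℝ) (U : Tri) (g : ℤ → ℤ → ℝ)
      (u v : ℤ → ℤ → ι → ℝ) (Q1 Q2 Q3 : ℕ → Pt → Prop) (X : ℝ),
      Φ ι p n ez F1 F2 F3 o K x s r U g u v Q1 Q2 Q3 X →
      Ψ ι p n ez F1 F2 F3 o K x s r U g u v Q1 Q2 Q3 X) : PairQ Ψ := by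
  intro a ha ha1
  obtain ⟨es, hes, H⟩ := H a ha ha1
  refine ⟨es, hes, fun e0 he0 he0' => ?_⟩
  obtain ⟨k8s, hk8s, H⟩ := H e0 he0 he0'
  refine ⟨k8s, hk8s, fun k8 hk8 hk8' => ?_⟩
  obtain ⟨k3s, hk3s, H⟩ := H k8 hk8 hk8'
  refine ⟨k3s, hk3s, fun k3 hk3 hk3' δ hδ => ?_⟩
  obtain ⟨c1, d0, hc1, hd0, H⟩ := H k3 hk3 hk3' δ hδ
  refine ⟨c1, d0, hc1, hd0, fun c hc hcc d hd hdd Kt e cP L hK he hcP hL => ?_⟩
  obtain ⟨C, hC, H⟩ := H c hc hcc d hd hdd Kt e cP L hK he hcP hL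
  refine ⟨C, hC, ?_⟩
  intro t ht ht1 n ez F1 F2 F3 h1 h3 h2 o ho K hKn x ι _ _ s r U g u v hs hr hcls Q1 Q2 Q3 q1 q2 q3
    hez
  exact h ι _ n ez F1 F2 F3 o K x s r U g u v Q1 Q2 Q3 _ (H t ht ht1 n ez F1 F2 F3 h1 h3 h2 o ho K
    hKn x ι s r U g u v hs hr hcls Q1 Q2 Q3 q1 q2 q3 hez)

/-- a leaf for all class data is a leaf for data with small fibres -/
theorem PairQ.toU {Φ : StQ} (H : PairQ Φ) : PairU Φ :=
  H.imp fun _ _ _ _ _ _ _ _ _ _ _ _ _ _ _ _ _ _ _ _ _ _ h _ _ => h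

theorem PairU.and {Φ1 Φ2 : StQ} (H1 : PairU Φ1) (H2 : PairU Φ2) (m1 : MonoQ Φ1)
    (m2 : MonoQ Φ2) : PairU fun ι _ _ p n ez F1 F2 F3 o K x s r U g u v Q1 Q2 Q3 X =>
      Φ1 ι p n ez F1 F2 F3 o K x s r U g u v Q1 Q2 Q3 X ∧
        Φ2 ι p n ez F1 F2 F3 o K x s r U g u v Q1 Q2 Q3 X := by
  refine (PairQ.and H1 H2 ?_ ?_).imp ?_
  · intro ι _ _ p n ez F1 F2 F3 o K x s r U g u v Q1 Q2 Q3 X X' ht hs hr hez hX h f1 f2
    exact m1 ι p n ez F1 F2 F3 o K x s r U g u v Q1 Q2 Q3 X X' ht hs hr hez hX (h f1 f2)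
  · intro ι _ _ p n ez F1 F2 F3 o K x s r U g u v Q1 Q2 Q3 X X' ht hs hr hez hX h f1 f2
    exact m2 ι p n ez F1 F2 F3 o K x s r U g u v Q1 Q2 Q3 X X' ht hs hr hez hX (h f1 f2)
  · intro ι _ _ p n ez F1 F2 F3 o K x s r U g u v Q1 Q2 Q3 X h f1 f2
    exact ⟨h.1 f1 f2, h.2 f1 f2⟩

/-! ### The leaves -/

/-- caps at one class -/
def QCap : StQ := fun _ _ _ p _ ez F1 F2 F3 o K x s r U g u v Q1 _ Q3 _ =>
  CapsG (p.al U K) o K (cx K x) (beI p r) (p.lam s r) u (cA p s r U K g F1 Q1)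
    (cb p s r U K u F3 Q3) (C1 p ez U K v F2) (tauI p s r) (cCI p s r)

/-- static pair `(A, Bg)` at one class -/
def QAB : StQ := fun ι _ _ p _ ez F1 F2 F3 o K x s r U g u v Q1 _ Q3 X =>
  ∀ h, 0 < h → h ≤ tauI p s r →
    PABg h ι (p.al U K) o K (cx K x) (fun _ _ => 0) (p.lam s r) u
      (cA p s r U K g F1 Q1) (cb p s r U K u F3 Q3) (C1 p ez U K v F2) ≤ X * (s * 8 ^ K) * h ^ 2

/-- moving pair `(Ct, A)` at one class -/
def QCA : StQ := fun ι _ _ p _ ez F1 F2 F3 o K x s r U g u v Q1 _ Q3 X =>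
  ∀ y, gI p s r ≤ y → y ≤ cCI p s r →
    PCAf (beI p r) y (tauI p s r) ι (p.al U K) o K (cx K x) (fun _ _ => 0) (p.lam s r) u
      (cA p s r U K g F1 Q1) (cb p s r U K u F3 Q3) (C1 p ez U K v F2) ≤
    X * (s * 8 ^ K) * ((p.t / r) ^ (p.e0 / 4) * (tauI p s r * y))

/-- moving pair `(Bg, Cg)` at one class -/
def QBC : StQ := fun ι _ _ p _ ez F1 F2 F3 o K x s r U g u v Q1 _ Q3 X =>
  ∀ y, gI p s r ≤ y → y ≤ cCI p s r →
    PBCg (beI p r) (tauI p s r) y ι (p.al U K) o K (cx K x) (fun _ _ => 0) (p.lam s r) u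
      (cA p s r U K g F1 Q1) (cb p s r U K u F3 Q3) (C1 p ez U K v F2) ≤
    X * (s * 8 ^ K) * (tauI p s r * y)

/-- static pair `(Ct, A)`, natural, at one class -/
def QCA1 : StQ := fun ι _ _ p _ ez F1 F2 F3 o K x s r U g u v Q1 _ Q3 X =>
  ∀ y σ, 0 < σ → σ ≤ y →
    PCAf (beI p r) y σ ι (p.al U K) o K (cx K x) (fun _ _ => 0) (p.lam s r) u
      (cA p s r U K g F1 Q1) (cb p s r U K u F3 Q3) (C1 p ez U K v F2) ≤ X * (s * 8 ^ K) * y ^ 2

/-- moving pair `(Bg, Cg)`, crude, at one class -/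
def QBC1 : StQ := fun ι _ _ p _ ez F1 F2 F3 o K x s r U g u v Q1 _ Q3 X =>
  ∀ h, 0 < h → h ≤ tauI p s r →
    PBCg (beI p r) h h ι (p.al U K) o K (cx K x) (fun _ _ => 0) (p.lam s r) u
      (cA p s r U K g F1 Q1) (cb p s r U K u F3 Q3) (C1 p ez U K v F2) ≤
    X * (s * 8 ^ K) * ((p.t / r) ^ (-12 : ℝ) * (h ^ 2 * (tauI p s r / h) ^ (1 / 4 : ℝ)))

/-- **LEAF: caps.** -/
def LCapG : Prop := PairU QCap

/-- **LEAF: static pair** `(A, Bg)`. -/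
def LABg : Prop := PairU QAB

/-- **LEAF: moving pair** `(Ct, A)`, full height of `A`. -/
def LCAu : Prop := PairU QCA

/-- **LEAF: moving pair** `(Bg, Cg)`, full height of `Bg`. -/
def LBCg : Prop := PairU QBC

/-- **LEAF: static pair** `(Ct, A)`, natural. -/
def LCA1u : Prop := PairU QCA1

/-- **LEAF: moving pair** `(Bg, Cg)`, crude. -/
def LBC1g : Prop := PairU QBC1

theorem LCA.toU (H : LCA) : LCAu := PairQ.toU H

theorem LCA1.toU (H : LCA1) : LCA1u := PairQ.toU H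

/-! ### All leaves together -/

theorem tauI_pos {p : H401.Num} {s r : ℝ} (ht : 0 < p.t) (hs : 0 < s) (hr : 1 ≤ r) :
    0 < tauI p s r := mul_pos two_pos (H401.Num.th_pos ht hs hr)

theorem gI_nn {p : H401.Num} {s r : ℝ} (ht : 0 < p.t) (hs : 0 < s) (hr : 1 ≤ r) :
    0 ≤ gI p s r :=
  mul_nonneg (Real.rpow_nonneg (div_nonneg ht.le (by linarith)) _) (tauI_pos ht hs hr).le

theorem monoCap : MonoQ QCap := by
  intro ι _ _ p n ez F1 F2 F3 o K x s r U g u v Q1 Q2 Q3 X X' ht hs hr _ hX H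
  exact H

theorem monoAB : MonoQ QAB := by
  intro ι _ _ p n ez F1 F2 F3 o K x s r U g u v Q1 Q2 Q3 X X' ht hs hr _ hX H h hh hh'
  refine (H h hh hh').trans ?_
  exact mul_le_mul_of_nonneg_right (mul_le_mul_of_nonneg_right hX (by positivity))
    (by positivity)

theorem monoCA : MonoQ QCA := by
  intro ι _ _ p n ez F1 F2 F3 o K x s r U g u v Q1 Q2 Q3 X X' ht hs hr _ hX H y hh hh'
  have h0 := tauI_pos (p := p) ht hs hr
  have h1 : 0 < p.t / r := div_pos ht (by linarith)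
  have h3 : 0 ≤ y := (gI_nn ht hs hr).trans hh
  refine (H y hh hh').trans ?_
  exact mul_le_mul_of_nonneg_right (mul_le_mul_of_nonneg_right hX (by positivity))
    (by positivity)

theorem monoBC : MonoQ QBC := by
  intro ι _ _ p n ez F1 F2 F3 o K x s r U g u v Q1 Q2 Q3 X X' ht hs hr _ hX H y hh hh'
  have h0 := tauI_pos (p := p) ht hs hr
  have h3 : 0 ≤ y := (gI_nn ht hs hr).trans hh
  refine (H y hh hh').trans ?_
  exact mul_le_mul_of_nonneg_right (mul_le_mul_of_nonneg_right hX (by positivity))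
    (by positivity)

theorem monoCA1 : MonoQ QCA1 := by
  intro ι _ _ p n ez F1 F2 F3 o K x s r U g u v Q1 Q2 Q3 X X' ht hs hr _ hX H y σ hh hh'
  refine (H y σ hh hh').trans ?_
  exact mul_le_mul_of_nonneg_right (mul_le_mul_of_nonneg_right hX (by positivity))
    (by positivity)

theorem monoBC1 : MonoQ QBC1 := by
  intro ι _ _ p n ez F1 F2 F3 o K x s r U g u v Q1 Q2 Q3 X X' ht hs hr _ hX H h hh hh'
  have h0 := tauI_pos (p := p) ht hs hr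
  have h1 : 0 < p.t / r := div_pos ht (by linarith)
  refine (H h hh hh').trans ?_
  exact mul_le_mul_of_nonneg_right (mul_le_mul_of_nonneg_right hX (by positivity))
    (by positivity)

theorem MonoQ.and {Φ1 Φ2 : StQ} (k1 : MonoQ Φ1) (k2 : MonoQ Φ2) :
    MonoQ fun ι _ _ p n ez F1 F2 F3 o K x s r U g u v Q1 Q2 Q3 X =>
      Φ1 ι p n ez F1 F2 F3 o K x s r U g u v Q1 Q2 Q3 X ∧
        Φ2 ι p n ez F1 F2 F3 o K x s r U g u v Q1 Q2 Q3 X := by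
  intro ι _ _ p n ez F1 F2 F3 o K x s r U g u v Q1 Q2 Q3 X X' ht hs hr hez hX H
  exact ⟨k1 ι p n ez F1 F2 F3 o K x s r U g u v Q1 Q2 Q3 X X' ht hs hr hez hX H.1,
    k2 ι p n ez F1 F2 F3 o K x s r U g u v Q1 Q2 Q3 X X' ht hs hr hez hX H.2⟩

/-- all the leaves at one class -/
def AllG : StQ := fun ι _ _ p n ez F1 F2 F3 o K x s r U g u v Q1 Q2 Q3 X =>
  QCap ι p n ez F1 F2 F3 o K x s r U g u v Q1 Q2 Q3 X ∧
  (QAB ι p n ez F1 F2 F3 o K x s r U g u v Q1 Q2 Q3 X ∧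
  (QCA ι p n ez F1 F2 F3 o K x s r U g u v Q1 Q2 Q3 X ∧
  (QBC ι p n ez F1 F2 F3 o K x s r U g u v Q1 Q2 Q3 X ∧
  (QCA1 ι p n ez F1 F2 F3 o K x s r U g u v Q1 Q2 Q3 X ∧
  QBC1 ι p n ez F1 F2 F3 o K x s r U g u v Q1 Q2 Q3 X))))

theorem all_leavesG (h0 : LCapG) (h1 : LABg) (h2 : LCAu) (h3 : LBCg) (h4 : LCA1u) (h5 : LBC1g) :
    PairU AllG :=
  PairU.and h0 (PairU.and h1 (PairU.and h2 (PairU.and h3 (PairU.and h4 h5 monoCA1 monoBC1)
    monoBC (monoCA1.and monoBC1)) monoCA (monoBC.and (monoCA1.and monoBC1))) monoAB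
    (monoCA.and (monoBC.and (monoCA1.and monoBC1)))) monoCap
    (monoAB.and (monoCA.and (monoBC.and (monoCA1.and monoBC1))))

end

end Vale.Agent.P141.H408
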