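import Vale.Agent.P141.H652.GlueI
import Vale.Agent.P141.H677.SkelTF
import Vale.Agent.P141.H585.PairCh

/-!
# P141, line (A): the increasing part, skeleton

Families at every `x0` (letters of `H677.Sk`): `A x0 k z y`, `b x0 k x y`,
`C x0 k z x = φ x0 k z x • v x z`; weight `Wg = be + Th` of `H652` at `(x0, x1, x3-cell)`.

* `Ct = Wg ^ (1/2) C`, `Bt = Wg ^ (-1/2) Th b` : `ndT = nf3 A Bt Ct` (`ndT_nf3`);
* `rAB`, `rBC`, `rCA` : the saturated pairs at a node; `StageS` : the stage sum over the `x0`;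
* `TIf` : the increasing part of families; `TIf_le` : by the stage and the error slot.
-/

namespace Vale.Agent.P141.H408

open Finset Matrix
open Vale.Agent.P075 (Ix val)
open Vale.Agent.P141.PL (Pt iv hs ix mem_iv ix_ix)
open Vale.Agent.P141.PL.H588 (Xg hd)
open Vale.Agent.P141.H103 (QW qK)
open Vale.Agent.P141.H585.PairCh (phs)
open Vale.Agent.P141.H652 (Th ndT gpT sumN Th_psd)
open Vale.Agent.P141.H677 (nf3 ndI KT GT sN rt tr_T)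
open Vale.Agent.P141.H677.Sk (FamA FamV FunF)
open Vale.Agent.P141.H420 (Tr)

noncomputable section

open scoped Classical

/-! ### The weight -/

section weight

variable {κ : Type*} [Fintype κ] [DecidableEq κ]

/-- a positive square root -/
def sq (W : Matrix κ κ ℝ) : Matrix κ κ ℝ :=
  if h : ∃ K : Matrix κ κ ℝ, K.PosDef ∧ K * K = W then Classical.choose h else 1

theorem sq_spec {W : Matrix κ κ ℝ} (hW : W.PosDef) : (sq W).PosDef ∧ sq W * sq W = W := by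
  have h : ∃ K : Matrix κ κ ℝ, K.PosDef ∧ K * K = W := H186.exists_sqrt hW
  unfold sq
  rw [dif_pos h]
  exact Classical.choose_spec h

/-- the weight of the node -/
def Wg (be l : ℝ) (N : ℕ) (S : ℤ) (Kq : ℤ → ℕ → ℤ → Matrix κ κ ℝ) (c x0 x : ℤ) (k : ℕ) (m : ℤ) :
    Matrix κ κ ℝ := be • (1 : Matrix κ κ ℝ) + Th l N S (Kq x) c x0 x k m

theorem Wg_pd {be l : ℝ} (hbe : 0 < be) {N : ℕ} {S : ℤ} {G Kq : ℤ → ℕ → ℤ → Matrix κ κ ℝ}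
    (h : ∀ x, Tr l N (G x) (Kq x)) (c x0 x : ℤ) (k : ℕ) (m : ℤ) :
    (Wg be l N S Kq c x0 x k m).PosDef :=
  (PosDef.one.smul hbe).add_posSemidef (Th_psd (h x) c x0 x k m)

/-- `W ^ (1/2) C` -/
def Ct (be l : ℝ) (N : ℕ) (S : ℤ) (Kq : ℤ → ℕ → ℤ → Matrix κ κ ℝ) (c x0 : ℤ)
    (C : ℤ → ℤ → κ → ℝ) (k : ℕ) (z x : ℤ) : κ → ℝ :=
  sq (Wg be l N S Kq c x0 x k (ix k z)) *ᵥ C z x

/-- `W ^ (-1/2) Th b` at the `x3`-cell `j` -/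
def Bt (be l : ℝ) (N : ℕ) (S : ℤ) (Kq : ℤ → ℕ → ℤ → Matrix κ κ ℝ) (c x0 : ℤ)
    (b : ℤ → ℤ → κ → ℝ) (k : ℕ) (j x y : ℤ) : κ → ℝ :=
  (sq (Wg be l N S Kq c x0 x k j))⁻¹ *ᵥ (Th l N S (Kq x) c x0 x k j *ᵥ b x y)

/-- `⟪W ^ (-1/2) Th b, W ^ (1/2) C⟫ = ⟪b, Th C⟫` -/
theorem dot_Bt {be l : ℝ} (hbe : 0 < be) {N : ℕ} {S : ℤ} {G Kq : ℤ → ℕ → ℤ → Matrix κ κ ℝ}
    (h : ∀ x, Tr l N (G x) (Kq x)) (c x0 : ℤ) (b C : ℤ → ℤ → κ → ℝ) (k : ℕ) (z x y : ℤ) :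
    Bt be l N S Kq c x0 b k (ix k z) x y ⬝ᵥ Ct be l N S Kq c x0 C k z x =
      b x y ⬝ᵥ Th l N S (Kq x) c x0 x k (ix k z) *ᵥ C z x := by
  unfold Bt Ct
  obtain ⟨h1, _⟩ := sq_spec (Wg_pd hbe h c x0 x k (ix k z) (S := S))
  set r := sq (Wg be l N S Kq c x0 x k (ix k z)) with hr
  have hT : (Th l N S (Kq x) c x0 x k (ix k z))ᵀ = Th l N S (Kq x) c x0 x k (ix k z) :=
    (Th_psd (h x) c x0 x k (ix k z)).isHermitian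
  have hrt : rᵀ = r := h1.isHermitian
  have hd : IsUnit r.det := (Matrix.isUnit_iff_isUnit_det _).1 h1.isUnit
  rw [dotProduct_mulVec, ← mulVec_transpose, hrt, mulVec_mulVec, mul_nonsing_inv _ hd, one_mulVec,
    dotProduct_mulVec, ← mulVec_transpose, hT]

end weight

/-! ### The node -/

section node

variable {κ : Type*} [Fintype κ] [DecidableEq κ]

/-- **The node form with the two half weights.** -/
theorem ndT_nf3 {be l : ℝ} (hbe : 0 < be) {N : ℕ} {S : ℤ} {G Kq : ℤ → ℕ → ℤ → Matrix κ κ ℝ}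
    (h : ∀ x, Tr l N (G x) (Kq x)) (c x0 : ℤ) (A : ℤ → ℤ → ℝ) (b C : ℤ → ℤ → κ → ℝ) {k : ℕ}
    (hk : 1 ≤ k) (m : Pt) :
    ndT l N S Kq c x0 A b C k m =
      nf3 A (Bt be l N S Kq c x0 b k m.1) (Ct be l N S Kq c x0 C k) k m := by
  unfold H652.ndT H677.nf3
  rw [mul_sum]
  refine sum_congr rfl fun z hz => ?_
  rw [mul_sum]
  refine sum_congr rfl fun x _ => ?_
  have hz1 : ix k z = m.1 := mem_iv.1 hz
  rw [H677.hd_qK hk, dotProduct_smul, dotProduct_sum, smul_eq_mul, mul_left_comm,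
    mul_sum (a := _ * _)]
  congr 1
  refine sum_congr rfl fun y _ => ?_
  have e := dot_Bt (S := S) hbe h c x0 b C k z x y
  rw [hz1] at e
  rw [e, dotProduct_smul, dotProduct_smul, smul_eq_mul, smul_eq_mul,
    dotProduct_comm (Th l N S (Kq x) c x0 x k m.1 *ᵥ C z x)]
  ring

/-- Gram matrix of the middle variable with the labels, outer and middle scale `k` -/
def QL (k : ℕ) (f : ℤ → ℤ → κ → ℝ) (n m : ℤ) : Matrix (Ix k × κ) (Ix k × κ) ℝ := fun p q =>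
  ((2 : ℝ) ^ k * 2 ^ k)⁻¹ * ∑ w ∈ iv k n,
    f w (2 ^ k * m + val k p.1) p.2 * f w (2 ^ k * m + val k q.1) q.2

/-- the Haar signs on the points with labels -/
def hdL (κ : Type*) [DecidableEq κ] (k : ℕ) : Matrix (Ix k × κ) (Ix k × κ) ℝ := fun p q =>
  if p.2 = q.2 then hd k p.1 q.1 else 0

/-- the saturated pair at the hub `x2` -/
def rAB (A : ℤ → ℤ → ℝ) (B : ℤ → ℤ → κ → ℝ) (k : ℕ) (m : Pt) (x y : ℝ) : ℝ :=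
  4 ^ k * (phs (x ^ 2) (Xg k k A m.1 m.2.1) *
    (hd k * phs (y ^ 2) (QW k k B (fun _ => 1) m.2.2 m.2.1) * hd k)).trace

/-- the saturated pair at the hub `x1` -/
def rBC (B C : ℤ → ℤ → κ → ℝ) (k : ℕ) (m : Pt) (y z : ℝ) : ℝ :=
  4 ^ k * (phs (y ^ 2) (QL k (fun y x => B x y) m.2.1 m.2.2) *
    (hdL κ k * phs (z ^ 2) (QL k C m.1 m.2.2) * hdL κ k)).trace

/-- the saturated pair at the hub `x3` -/
def rCA (C : ℤ → ℤ → κ → ℝ) (A : ℤ → ℤ → ℝ) (k : ℕ) (m : Pt) (z x : ℝ) : ℝ :=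
  4 ^ k * (phs (z ^ 2) (QW k k (fun x z => C z x) (fun _ => 1) m.2.2 m.1) *
    (hd k * phs (x ^ 2) (Xg k k (fun y z => A z y) m.2.1 m.1) * hd k)).trace

end node

/-! ### The stage -/

/-- **LEAF (stage over the `x0`)**, labels allowed, functions depending on the node: uniform caps,
sums over the `x0` of the three saturated pairs with slack `(τ / h) ^ (1/4)`, and the product above
`θ τ`. From `H228.stageL`, the labelled matrix form and Cauchy-Schwarz over the `x0`. -/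
def StageC (Cst : ℝ) : Prop :=
  ∀ (κ : Type) [Fintype κ] [DecidableEq κ] (J : Type) (X : Finset J) (K : ℕ)
    (s : J → ℕ → Finset Pt) (A : J → ℕ → Pt → ℤ → ℤ → ℝ) (B C : J → ℕ → Pt → ℤ → ℤ → κ → ℝ)
    (cA cB cC θ τ P₀ PA PB κ' : ℝ) (L₀ : ℕ),
    0 < cA → cA ≤ τ → 0 < cB → cB ≤ τ → 0 < cC → 0 < θ → 0 ≤ P₀ → 0 ≤ PA → 0 ≤ PB → 0 ≤ κ' →
    cC / 2 ^ (L₀ - 1) ≤ θ * τ →
    (∀ i ∈ X, ∀ k ∈ Icc 1 K, ∀ m ∈ s i k,
      ((cA ^ 2) • 1 - Xg k k (A i k m) m.1 m.2.1).PosSemidef) →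
    (∀ i ∈ X, ∀ k ∈ Icc 1 K, ∀ m ∈ s i k,
      ((cB ^ 2) • 1 - QW k k (B i k m) (fun _ => 1) m.2.2 m.2.1).PosSemidef) →
    (∀ i ∈ X, ∀ k ∈ Icc 1 K, ∀ m ∈ s i k,
      ((cC ^ 2) • 1 - QW k k (fun x z => C i k m z x) (fun _ => 1) m.2.2 m.1).PosSemidef) →
    (∀ h, 0 < h → h ≤ τ → ∑ i ∈ X, ∑ k ∈ Icc 1 K, ∑ m ∈ s i k, rAB (A i k m) (B i k m) k m h h ≤
      P₀ * (h ^ 2 * (τ / h) ^ (1 / 4 : ℝ))) →
    (∀ h, 0 < h → h ≤ τ → ∑ i ∈ X, ∑ k ∈ Icc 1 K, ∑ m ∈ s i k,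
      rBC (B i k m) (C i k m) k m h (θ * h) ≤ PB * (h ^ 2 * (τ / h) ^ (1 / 4 : ℝ))) →
    (∀ h, 0 < h → h ≤ τ → ∑ i ∈ X, ∑ k ∈ Icc 1 K, ∑ m ∈ s i k,
      rCA (C i k m) (A i k m) k m (θ * h) h ≤ PA * (h ^ 2 * (τ / h) ^ (1 / 4 : ℝ))) →
    (∀ x, θ * τ ≤ x → x ≤ cC → √((∑ i ∈ X, ∑ k ∈ Icc 1 K, ∑ m ∈ s i k,
        rBC (B i k m) (C i k m) k m cB x) * ∑ i ∈ X, ∑ k ∈ Icc 1 K, ∑ m ∈ s i k,
        rCA (C i k m) (A i k m) k m x cA) ≤ κ' * x) →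
    ∑ i ∈ X, ∑ k ∈ Icc 1 K, ∑ m ∈ s i k, |nf3 (A i k m) (B i k m) (C i k m) k m| ≤
      Cst * ((√(P₀ * PA) + √(P₀ * PB) + √(PA * PB) / θ) * τ + κ' * L₀)

/-- the stage with some constant -/
def StageS : Prop := ∃ Cst : ℝ, 0 ≤ Cst ∧ StageC Cst

/-- **LEAF (raw stage over the `x0`)**, hypotheses of `H581.stageY`, slack `√(e₂ / h)` below `e₂`. -/
def StageYC (Cst : ℝ) : Prop :=
  ∀ (κ : Type) [Fintype κ] [DecidableEq κ] (J : Type) (X : Finset J) (K : ℕ)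
    (s : J → ℕ → Finset Pt) (A : J → ℕ → Pt → ℤ → ℤ → ℝ) (B C : J → ℕ → Pt → ℤ → ℤ → κ → ℝ)
    (τ cC P₀ P₁ QA QB Z κ' g σ e₂ : ℝ) (D L₀ L₁ : ℕ),
    0 < τ → 0 < cC → 0 ≤ P₀ → 0 ≤ P₁ → 0 ≤ QB → 0 ≤ Z → 0 ≤ κ' → 0 < e₂ →
    τ / 2 ^ (D - 1) ≤ σ → σ ≤ e₂ → cC / 2 ^ (L₀ - 1) ≤ g → cC / 2 ^ (L₁ - 1) ≤ e₂ →
    (∀ i ∈ X, ∀ k ∈ Icc 1 K, ∀ m ∈ s i k,
      ((τ ^ 2) • 1 - Xg k k (A i k m) m.1 m.2.1).PosSemidef) →
    (∀ i ∈ X, ∀ k ∈ Icc 1 K, ∀ m ∈ s i k,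
      ((τ ^ 2) • 1 - QW k k (B i k m) (fun _ => 1) m.2.2 m.2.1).PosSemidef) →
    (∀ i ∈ X, ∀ k ∈ Icc 1 K, ∀ m ∈ s i k,
      ((cC ^ 2) • 1 - QW k k (fun x z => C i k m z x) (fun _ => 1) m.2.2 m.1).PosSemidef) →
    (∀ h, 0 < h → h ≤ τ → ∑ i ∈ X, ∑ k ∈ Icc 1 K, ∑ m ∈ s i k, rAB (A i k m) (B i k m) k m h h ≤
      P₀ * h ^ 2) →
    (∀ x, g ≤ x → x ≤ cC → √((∑ i ∈ X, ∑ k ∈ Icc 1 K, ∑ m ∈ s i k,
        rBC (B i k m) (C i k m) k m τ x) * ∑ i ∈ X, ∑ k ∈ Icc 1 K, ∑ m ∈ s i k,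
        rCA (C i k m) (A i k m) k m x τ) ≤ κ' * x) →
    ∑ i ∈ X, ∑ k ∈ Icc 1 K, ∑ m ∈ s i k, rCA (C i k m) (A i k m) k m g τ ≤ QA →
    ∑ i ∈ X, ∑ k ∈ Icc 1 K, ∑ m ∈ s i k, rBC (B i k m) (C i k m) k m τ g ≤ QB →
    (∀ x, e₂ ≤ x → x ≤ g → ∑ i ∈ X, ∑ k ∈ Icc 1 K, ∑ m ∈ s i k,
      rCA (C i k m) (A i k m) k m x σ ≤ P₁ * x ^ 2) →
    (∀ h, 0 < h → h ≤ e₂ → ∑ i ∈ X, ∑ k ∈ Icc 1 K, ∑ m ∈ s i k,
      rBC (B i k m) (C i k m) k m h h ≤ Z * (h ^ 2 * √(e₂ / h))) →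
    (∀ h, 0 < h → h ≤ e₂ → ∑ i ∈ X, ∑ k ∈ Icc 1 K, ∑ m ∈ s i k,
      rCA (C i k m) (A i k m) k m h h ≤ Z * (h ^ 2 * √(e₂ / h))) →
    ∑ i ∈ X, ∑ k ∈ Icc 1 K, ∑ m ∈ s i k, |nf3 (A i k m) (B i k m) (C i k m) k m| ≤
      Cst * (κ' * L₀ + D * (√(P₀ * QA) + √(P₀ * QB)) + L₁ * √(P₁ * QB) + (P₀ + Z) * e₂)

/-- the raw stage with some constant -/
def StageY1 : Prop := ∃ Cst : ℝ, 0 ≤ Cst ∧ StageYC Cst

/-! ### The increasing part of families -/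

section fam

variable {ι : Type} [Fintype ι] [DecidableEq ι]

/-- the sum over the alive nodes at all `x0` (`H652.sumN` at the root `M`) -/
def SN (Al : ℕ → Pt → Prop) (o : ℤ) (K : ℕ) (M : Pt) (f : ℤ → ℕ → Pt → ℝ) : ℝ :=
  ∑ t ∈ rt M, ∑ x0 ∈ iv K t, ∑ k ∈ Icc 1 K, ∑ m ∈ sN Al o K M x0 k, f x0 k m

theorem sumN_SN (Al : ℕ → Pt → Prop) (o : ℤ) (K : ℕ) (x : Pt) (f : ℤ → ℕ → Pt → ℝ) :
    sumN o Al K x f = SN Al o K (PL.cx K x) f := rfl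

/-- **The increasing part of families.** -/
def TIf : FunF := fun _ _ _ Al o K M _ l u A b C =>
  SN Al o K M fun x0 k m => |ndI l (KT l u) (A x0 k) (b x0 k) (C x0 k) k m|

/-- the part with the slot `Th` -/
def TTf : FunF := fun _ _ _ Al o K M _ l u A b C =>
  SN Al o K M fun x0 k m => |ndT l K M.2.1 (KT l u) (o - 2) x0 (A x0 k) (b x0 k) (C x0 k) k m|

/-- the gap energy of the static pair `(A, b)` -/
def GPf : FunF := fun _ _ _ Al o K M _ _ _ A b _ =>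
  SN Al o K M fun x0 k m => gpT (A x0 k) (b x0 k) k m

/-- static pair `(A, Bt)` at the height `h` -/
def PABf (be h : ℝ) : FunF := fun _ _ _ Al o K M _ l u A b _ =>
  SN Al o K M fun x0 k m =>
    rAB (A x0 k) (Bt be l K M.2.1 (KT l u) (o - 2) x0 (b x0 k) k m.1) k m h h

/-- moving pair `(Bt, Ct)` at the heights `y`, `z` -/
def PBCf (be y z : ℝ) : FunF := fun _ _ _ Al o K M _ l u _ b C =>
  SN Al o K M fun x0 k m =>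
    rBC (Bt be l K M.2.1 (KT l u) (o - 2) x0 (b x0 k) k m.1)
      (Ct be l K M.2.1 (KT l u) (o - 2) x0 (C x0 k) k) k m y z

/-- moving pair `(Ct, A)` at the heights `z`, `x` -/
def PCAf (be z x : ℝ) : FunF := fun _ _ _ Al o K M _ l u A _ C =>
  SN Al o K M fun x0 k m =>
    rCA (Ct be l K M.2.1 (KT l u) (o - 2) x0 (C x0 k) k) (A x0 k) k m z x

theorem SN_sigma (Al : ℕ → Pt → Prop) (o : ℤ) (K : ℕ) (M : Pt) (f : ℤ → ℕ → Pt → ℝ) :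
    SN Al o K M f = ∑ i ∈ (rt M).sigma fun t => iv K t, ∑ k ∈ Icc 1 K,
      ∑ m ∈ sN Al o K M i.2 k, f i.2 k m := by
  unfold SN
  rw [sum_sigma]

/-- caps of the families at the alive nodes -/
structure Caps (Al : ℕ → Pt → Prop) (o : ℤ) (K : ℕ) (M : Pt) (be l : ℝ) (u : ℤ → ℤ → ι → ℝ)
    (A : FamA) (b C : FamV ι) (cA cB cC : ℝ) : Prop where
  capA : ∀ x0 : ℤ, ∀ k ∈ Icc 1 K, ∀ m ∈ sN Al o K M x0 k,
    ((cA ^ 2) • 1 - Xg k k (A x0 k) m.1 m.2.1).PosSemidef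
  capB : ∀ x0 : ℤ, ∀ k ∈ Icc 1 K, ∀ m ∈ sN Al o K M x0 k,
    ((cB ^ 2) • 1 - QW k k (Bt be l K M.2.1 (KT l u) (o - 2) x0 (b x0 k) k m.1) (fun _ => 1)
      m.2.2 m.2.1).PosSemidef
  capC : ∀ x0 : ℤ, ∀ k ∈ Icc 1 K, ∀ m ∈ sN Al o K M x0 k,
    ((cC ^ 2) • 1 - QW k k (fun x z => Ct be l K M.2.1 (KT l u) (o - 2) x0 (C x0 k) k z x)
      (fun _ => 1) m.2.2 m.1).PosSemidef

/-- **The part with the slot `Th` by the stage.** -/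
theorem TTf_le {Cst : ℝ} (H : StageC Cst)
    {Al : ℕ → Pt → Prop} {o : ℤ} {K : ℕ} {M : Pt} {sg : ℕ → Pt → ℝ} {be l : ℝ} (hbe : 0 < be)
    (hl : 0 < l) {u : ℤ → ℤ → ι → ℝ} {A : FamA} {b C : FamV ι}
    {cA cB cC θ τ P₀ PA PB κ' : ℝ} {L₀ : ℕ} (hcA : 0 < cA) (hA : cA ≤ τ) (hcB : 0 < cB)
    (hB : cB ≤ τ) (hcC : 0 < cC) (hθ : 0 < θ) (hP₀ : 0 ≤ P₀) (hPA : 0 ≤ PA) (hPB : 0 ≤ PB)
    (hκ' : 0 ≤ κ') (hL : cC / 2 ^ (L₀ - 1) ≤ θ * τ)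
    (hcap : Caps Al o K M be l u A b C cA cB cC)
    (hAB : ∀ h, 0 < h → h ≤ τ → PABf be h ι Al o K M sg l u A b C ≤
      P₀ * (h ^ 2 * (τ / h) ^ (1 / 4 : ℝ)))
    (hBC : ∀ h, 0 < h → h ≤ τ → PBCf be h (θ * h) ι Al o K M sg l u A b C ≤
      PB * (h ^ 2 * (τ / h) ^ (1 / 4 : ℝ)))
    (hCA : ∀ h, 0 < h → h ≤ τ → PCAf be (θ * h) h ι Al o K M sg l u A b C ≤
      PA * (h ^ 2 * (τ / h) ^ (1 / 4 : ℝ)))
    (hT : ∀ x, θ * τ ≤ x → x ≤ cC → √(PBCf be cB x ι Al o K M sg l u A b C *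
      PCAf be x cA ι Al o K M sg l u A b C) ≤ κ' * x) :
    TTf ι Al o K M sg l u A b C ≤
      Cst * ((√(P₀ * PA) + √(P₀ * PB) + √(PA * PB) / θ) * τ + κ' * L₀) := by
  unfold PABf at hAB
  unfold PBCf at hBC
  unfold PCAf at hCA
  unfold PBCf PCAf at hT
  simp only [SN_sigma] at hAB hBC hCA hT
  have e : TTf ι Al o K M sg l u A b C = SN Al o K M fun x0 k m =>
      |nf3 (A x0 k) (Bt be l K M.2.1 (KT l u) (o - 2) x0 (b x0 k) k m.1)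
        (Ct be l K M.2.1 (KT l u) (o - 2) x0 (C x0 k) k) k m| := by
    unfold TTf SN
    refine sum_congr rfl fun t _ => sum_congr rfl fun x0 _ => sum_congr rfl fun k hk =>
      sum_congr rfl fun m _ => ?_
    exact congrArg abs (ndT_nf3 hbe (fun x => tr_T hl K u x) (o - 2) x0 (A x0 k) (b x0 k) (C x0 k)
      (mem_Icc.1 hk).1 m)
  rw [e, SN_sigma]
  exact H ι (Sigma fun _ : ℤ => ℤ) ((rt M).sigma fun t => iv K t) K (fun i k => sN Al o K M i.2 k)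
    (fun i k _ => A i.2 k) (fun i k m => Bt be l K M.2.1 (KT l u) (o - 2) i.2 (b i.2 k) k m.1)
    (fun i k _ => Ct be l K M.2.1 (KT l u) (o - 2) i.2 (C i.2 k) k) cA cB cC θ τ P₀ PA PB κ' L₀
    hcA hA hcB hB hcC hθ hP₀ hPA hPB hκ' hL (fun i _ k hk m hm => hcap.capA i.2 k hk m hm)
    (fun i _ k hk m hm => hcap.capB i.2 k hk m hm) (fun i _ k hk m hm => hcap.capC i.2 k hk m hm)
    hAB hBC hCA hT

/-- **The part with the slot `Th` by the raw stage.** -/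
theorem TTf_leY {Cst : ℝ} (H : StageYC Cst)
    {Al : ℕ → Pt → Prop} {o : ℤ} {K : ℕ} {M : Pt} {sg : ℕ → Pt → ℝ} {be l : ℝ} (hbe : 0 < be)
    (hl : 0 < l) {u : ℤ → ℤ → ι → ℝ} {A : FamA} {b C : FamV ι}
    {τ cC P₀ P₁ QA QB Z κ' g σ e₂ : ℝ} {D L₀ L₁ : ℕ} (hτ : 0 < τ) (hcC : 0 < cC) (hP₀ : 0 ≤ P₀)
    (hP₁ : 0 ≤ P₁) (hQB0 : 0 ≤ QB) (hZ : 0 ≤ Z) (hκ' : 0 ≤ κ') (he₂ : 0 < e₂)
    (hD : τ / 2 ^ (D - 1) ≤ σ) (hσ : σ ≤ e₂) (hL₀ : cC / 2 ^ (L₀ - 1) ≤ g)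
    (hL₁ : cC / 2 ^ (L₁ - 1) ≤ e₂) (hcap : Caps Al o K M be l u A b C τ τ cC)
    (hAB : ∀ h, 0 < h → h ≤ τ → PABf be h ι Al o K M sg l u A b C ≤ P₀ * h ^ 2)
    (hT : ∀ x, g ≤ x → x ≤ cC → √(PBCf be τ x ι Al o K M sg l u A b C *
      PCAf be x τ ι Al o K M sg l u A b C) ≤ κ' * x)
    (hQA : PCAf be g τ ι Al o K M sg l u A b C ≤ QA)
    (hQB : PBCf be τ g ι Al o K M sg l u A b C ≤ QB)
    (hCA : ∀ x, e₂ ≤ x → x ≤ g → PCAf be x σ ι Al o K M sg l u A b C ≤ P₁ * x ^ 2)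
    (hZB : ∀ h, 0 < h → h ≤ e₂ → PBCf be h h ι Al o K M sg l u A b C ≤ Z * (h ^ 2 * √(e₂ / h)))
    (hZA : ∀ h, 0 < h → h ≤ e₂ → PCAf be h h ι Al o K M sg l u A b C ≤ Z * (h ^ 2 * √(e₂ / h))) :
    TTf ι Al o K M sg l u A b C ≤
      Cst * (κ' * L₀ + D * (√(P₀ * QA) + √(P₀ * QB)) + L₁ * √(P₁ * QB) + (P₀ + Z) * e₂) := by
  unfold PABf at hAB
  unfold PBCf at hQB hZB
  unfold PCAf at hQA hCA hZA
  unfold PBCf PCAf at hT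
  simp only [SN_sigma] at hAB hT hQA hQB hCA hZB hZA
  have e : TTf ι Al o K M sg l u A b C = SN Al o K M fun x0 k m =>
      |nf3 (A x0 k) (Bt be l K M.2.1 (KT l u) (o - 2) x0 (b x0 k) k m.1)
        (Ct be l K M.2.1 (KT l u) (o - 2) x0 (C x0 k) k) k m| := by
    unfold TTf SN
    refine sum_congr rfl fun t _ => sum_congr rfl fun x0 _ => sum_congr rfl fun k hk =>
      sum_congr rfl fun m _ => ?_
    exact congrArg abs (ndT_nf3 hbe (fun x => tr_T hl K u x) (o - 2) x0 (A x0 k) (b x0 k) (C x0 k)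
      (mem_Icc.1 hk).1 m)
  rw [e, SN_sigma]
  exact H ι (Sigma fun _ : ℤ => ℤ) ((rt M).sigma fun t => iv K t) K (fun i k => sN Al o K M i.2 k)
    (fun i k _ => A i.2 k) (fun i k m => Bt be l K M.2.1 (KT l u) (o - 2) i.2 (b i.2 k) k m.1)
    (fun i k _ => Ct be l K M.2.1 (KT l u) (o - 2) i.2 (C i.2 k) k) τ cC P₀ P₁ QA QB Z κ' g σ e₂
    D L₀ L₁ hτ hcC hP₀ hP₁ hQB0 hZ hκ' he₂ hD hσ hL₀ hL₁
    (fun i _ k hk m hm => hcap.capA i.2 k hk m hm) (fun i _ k hk m hm => hcap.capB i.2 k hk m hm)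
    (fun i _ k hk m hm => hcap.capC i.2 k hk m hm) hAB hT hQA hQB hCA hZB hZA

/-- **The increasing part of families**: the part with the slot `Th` and the error slot. -/
theorem TIf_le {Al : ℕ → Pt → Prop} {o : ℤ} (ho : o = 1 ∨ o = -1) {K : ℕ} {x : Pt}
    {sg : ℕ → Pt → ℝ} {l : ℝ} (hl : 0 < l) {u v : ℤ → ℤ → ι → ℝ} {A : FamA} {b C : FamV ι}
    {φ : ℕ → Pt → ℝ} {e : ℝ} (he : 0 ≤ e)
    (hφ : ∀ k ∈ Icc 1 K, ∀ j x1 x3, ∑ x0 ∈ iv k j, φ k (x0, x1, x3) ^ 2 ≤ e * 2 ^ k)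
    (hC : ∀ x0 k z w, C x0 k z w = φ k (x0, w, z) • v w z) :
    TIf ι Al o K (PL.cx K x) sg l u A b C ≤ TTf ι Al o K (PL.cx K x) sg l u A b C +
      √(e * (2 ^ K * ∑ x1 ∈ iv K (PL.cx K x).1, ∑ x3 ∈ iv K (PL.cx K x).2.2,
        12288 * l⁻¹ * (v x1 x3 ⬝ᵥ GT u x1 K (PL.cx K x).2.1 *ᵥ v x1 x3))) *
      √(GPf ι Al o K (PL.cx K x) sg l u A b C) :=
  H652.TI_le_Th hl ho u he hφ hC

end fam

end

end Vale.Agent.P141.H408
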