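import Vale.Agent.P141.H408.SkelTI
import Vale.Agent.P141.H401.CutData
import Vale.Agent.P141.H652.RedF

/-!
# P141, line (A): the increasing part of the definite cut families, skeleton

`y = t / r`; `be = y ^ (e0 / 2)`, `θ = √ez y ^ (e0 / 4)`, `τ = 2 th`, cap of the third function
`cC = 4 √ez s^(1/4) y⁻¹`.

* `PairQ` : quantifiers of the number leaves, loss `y ^ (-δ)` for every `δ`;
* `LCap`, `LAB`, `LBC`, `LCA`, `LT` : the leaves; `cst_NT` : the price of the part with the slot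
  `Th`.
-/

namespace Vale.Agent.P141.H408

open Finset Matrix
open Vale.Agent.P141.PL (Pt iv cx)
open Vale.Agent.P141.PL.H315 (Tri)
open Vale.Agent.P141.H48 (US ES BSl)
open Vale.Agent.P141.H305 (ClsM kapM)
open Vale.Agent.P141.H401 (StQ PartQ PartY CSt cA cb mC)
open Vale.Agent.P141.H677 (KT)
open Vale.Agent.P141.H652 (NT ndT)

noncomputable section

open scoped Classical

/-! ### The quantifiers of the number leaves -/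

/-- **Numbers of the cut families**: the last argument of `Φ` is `C (t / r) ^ (-δ)`. -/
def PairQ (Φ : StQ) : Prop :=
  ∀ a : ℝ, 0 < a → a ≤ 1 →
  ∃ es : ℝ, 0 < es ∧ ∀ e0 : ℝ, 0 < e0 → e0 ≤ es →
  ∃ k8s : ℝ, 0 < k8s ∧ ∀ k8 : ℝ, 0 < k8 → k8 ≤ k8s →
  ∃ k3s : ℝ, 0 < k3s ∧ ∀ k3 : ℝ, 0 < k3 → k3 ≤ k3s →
  ∀ δ : ℝ, 0 < δ →
  ∃ c1 d0 : ℝ, 0 < c1 ∧ 0 < d0 ∧ ∀ c : ℝ, 0 ≤ c → c ≤ c1 → ∀ d : ℝ, 0 < d → d ≤ d0 →
  ∀ Kt e cP L : ℝ, 0 < Kt → 1 ≤ e → 0 ≤ cP → 1 ≤ L → ∃ C : ℝ, 0 ≤ C ∧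
  ∀ t : ℝ, 0 < t → t ≤ 1 → ∀ (n : ℕ) (ez : ℝ) (F1 F2 F3 : ℕ → Pt → ℝ),
    US n (Kt * t ^ (1 - c)) e cP F1 → US n (Kt * t ^ (1 - c)) e cP F3 → ES n ez cP F2 →
  ∀ o : ℤ, o = 1 ∨ o = -1 → ∀ K ≤ n, ∀ (x : Pt) (ι : Type) [Fintype ι] [DecidableEq ι]
    (s r : ℝ) (U : Tri) (g : ℤ → ℤ → ℝ) (u v : ℤ → ℤ → ι → ℝ), 0 < s → 1 ≤ r →
    ClsM K x s r (L * t ^ (2 - c) * √s) (kapM L t a s r) U g u v →
    ∀ Q1 Q2 Q3 : ℕ → Pt → Prop, BSl n e cP F1 Q1 → BSl n ez cP F2 Q2 → BSl n e cP F3 Q3 →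
    0 < ez →
    Φ ι ⟨a, e0, k8, k3, c, d, Kt, e, cP, L, 1, t⟩ n ez F1 F2 F3 o K x s r U g u v Q1 Q2 Q3
      (C * (t / r) ^ (-δ))

/-- monotone in the number -/
def MonoQ (Φ : StQ) : Prop :=
  ∀ (ι : Type) [Fintype ι] [DecidableEq ι] (p : H401.Num) (n : ℕ) (ez : ℝ)
    (F1 F2 F3 : ℕ → Pt → ℝ) (o : ℤ) (K : ℕ) (x : Pt) (s r : ℝ) (U : Tri) (g : ℤ → ℤ → ℝ)
    (u v : ℤ → ℤ → ι → ℝ) (Q1 Q2 Q3 : ℕ → Pt → Prop) (X X' : ℝ), 0 < p.t → 0 < s → 1 ≤ r →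
    0 < ez → X ≤ X' → Φ ι p n ez F1 F2 F3 o K x s r U g u v Q1 Q2 Q3 X →
    Φ ι p n ez F1 F2 F3 o K x s r U g u v Q1 Q2 Q3 X'

theorem PairQ.and {Φ1 Φ2 : StQ} (H1 : PairQ Φ1) (H2 : PairQ Φ2) (m1 : MonoQ Φ1)
    (m2 : MonoQ Φ2) : PairQ fun ι _ _ p n ez F1 F2 F3 o K x s r U g u v Q1 Q2 Q3 X =>
      Φ1 ι p n ez F1 F2 F3 o K x s r U g u v Q1 Q2 Q3 X ∧
        Φ2 ι p n ez F1 F2 F3 o K x s r U g u v Q1 Q2 Q3 X := by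
  intro a ha ha1
  obtain ⟨es1, hes1, H1⟩ := H1 a ha ha1
  obtain ⟨es2, hes2, H2⟩ := H2 a ha ha1
  refine ⟨min es1 es2, lt_min hes1 hes2, fun e0 he0 he0' => ?_⟩
  obtain ⟨k81, hk81, H1⟩ := H1 e0 he0 (he0'.trans (min_le_left _ _))
  obtain ⟨k82, hk82, H2⟩ := H2 e0 he0 (he0'.trans (min_le_right _ _))
  refine ⟨min k81 k82, lt_min hk81 hk82, fun k8 hk8 hk8' => ?_⟩
  obtain ⟨k31, hk31, H1⟩ := H1 k8 hk8 (hk8'.trans (min_le_left _ _))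
  obtain ⟨k32, hk32, H2⟩ := H2 k8 hk8 (hk8'.trans (min_le_right _ _))
  refine ⟨min k31 k32, lt_min hk31 hk32, fun k3 hk3 hk3' δ hδ => ?_⟩
  obtain ⟨c1, d1, hc1, hd1, H1⟩ := H1 k3 hk3 (hk3'.trans (min_le_left _ _)) δ hδ
  obtain ⟨c2, d2, hc2, hd2, H2⟩ := H2 k3 hk3 (hk3'.trans (min_le_right _ _)) δ hδ
  refine ⟨min c1 c2, min d1 d2, lt_min hc1 hc2, lt_min hd1 hd2,
    fun c hc hcc d hd hdd Kt e cP L hK he hcP hL => ?_⟩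
  obtain ⟨C1, hC1, H1⟩ := H1 c hc (hcc.trans (min_le_left _ _)) d hd (hdd.trans (min_le_left _ _))
    Kt e cP L hK he hcP hL
  obtain ⟨C2, hC2, H2⟩ := H2 c hc (hcc.trans (min_le_right _ _)) d hd
    (hdd.trans (min_le_right _ _)) Kt e cP L hK he hcP hL
  refine ⟨max C1 C2, le_max_of_le_left hC1, ?_⟩
  intro t ht ht1 n ez F1 F2 F3 h1 h3 h2 o ho K hKn x ι _ _ s r U g u v hs hr hcls Q1 Q2 Q3 q1 q2 q3
    hez
  have hy : 0 ≤ (t / r) ^ (-δ) := Real.rpow_nonneg (div_nonneg ht.le (by linarith)) _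
  exact ⟨m1 ι _ n ez F1 F2 F3 o K x s r U g u v Q1 Q2 Q3 _ _ ht hs hr hez
      (mul_le_mul_of_nonneg_right (le_max_left _ _) hy)
      (H1 t ht ht1 n ez F1 F2 F3 h1 h3 h2 o ho K hKn x ι s r U g u v hs hr hcls Q1 Q2 Q3 q1 q2 q3
        hez),
    m2 ι _ n ez F1 F2 F3 o K x s r U g u v Q1 Q2 Q3 _ _ ht hs hr hez
      (mul_le_mul_of_nonneg_right (le_max_right _ _) hy)
      (H2 t ht ht1 n ez F1 F2 F3 h1 h3 h2 o ho K hKn x ι s r U g u v hs hr hcls Q1 Q2 Q3 q1 q2 q3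
        hez)⟩

/-! ### The leaves -/

/-- lower bound of the weight -/
def beI (p : H401.Num) (r : ℝ) : ℝ := (p.t / r) ^ (p.e0 / 2)

/-- height of the stage -/
def tauI (p : H401.Num) (s r : ℝ) : ℝ := 2 * p.th s r

/-- the level of the last moving pair -/
def gI (p : H401.Num) (s r : ℝ) : ℝ := (p.t / r) ^ (p.e0 / 4) * tauI p s r

/-- cap of the third function -/
def cCI (p : H401.Num) (s r : ℝ) : ℝ := 4 * (s ^ (1 / 4 : ℝ) * (p.t / r)⁻¹)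

/-- the third family, normalised -/
def C1 {ι : Type} [Fintype ι] [DecidableEq ι] (p : H401.Num) (ez : ℝ) (U : Tri) (K : ℕ)
    (v : ℤ → ℤ → ι → ℝ) (F2 : ℕ → Pt → ℝ) : ℤ → ℕ → ℤ → ℤ → ι → ℝ := fun x0 k z x =>
  (√ez)⁻¹ • mC p U K v F2 x0 k z x

/-- **LEAF: caps.** -/
def LCap : Prop := PairQ fun _ _ _ p _ ez F1 F2 F3 o K x s r U g u v Q1 _ Q3 _ =>
  Caps (p.al U K) o K (cx K x) (beI p r) (p.lam s r) u (cA p s r U K g F1 Q1)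
    (cb p s r U K u F3 Q3) (C1 p ez U K v F2) (tauI p s r) (tauI p s r) (cCI p s r)

/-- **LEAF: static pair** `(A, Bt)`. -/
def LAB : Prop := PairQ fun ι _ _ p _ ez F1 F2 F3 o K x s r U g u v Q1 _ Q3 X =>
  ∀ h, 0 < h → h ≤ tauI p s r →
    PABf (beI p r) h ι (p.al U K) o K (cx K x) (fun _ _ => 0) (p.lam s r) u
      (cA p s r U K g F1 Q1) (cb p s r U K u F3 Q3) (C1 p ez U K v F2) ≤ X * (s * 8 ^ K) * h ^ 2

/-- **LEAF: moving pair** `(Ct, A)`, full height of `A`. -/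
def LCA : Prop := PairQ fun ι _ _ p _ ez F1 F2 F3 o K x s r U g u v Q1 _ Q3 X =>
  ∀ y, gI p s r ≤ y → y ≤ cCI p s r →
    PCAf (beI p r) y (tauI p s r) ι (p.al U K) o K (cx K x) (fun _ _ => 0) (p.lam s r) u
      (cA p s r U K g F1 Q1) (cb p s r U K u F3 Q3) (C1 p ez U K v F2) ≤
    X * (s * 8 ^ K) * ((p.t / r) ^ (p.e0 / 4) * (tauI p s r * y))

/-- **LEAF: moving pair** `(Bt, Ct)`, full height of `Bt`. -/
def LBC : Prop := PairQ fun ι _ _ p _ ez F1 F2 F3 o K x s r U g u v Q1 _ Q3 X =>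
  ∀ y, gI p s r ≤ y → y ≤ cCI p s r →
    PBCf (beI p r) (tauI p s r) y ι (p.al U K) o K (cx K x) (fun _ _ => 0) (p.lam s r) u
      (cA p s r U K g F1 Q1) (cb p s r U K u F3 Q3) (C1 p ez U K v F2) ≤
    X * (s * 8 ^ K) * (tauI p s r * y)

/-- **LEAF: static pair** `(Ct, A)`, natural. -/
def LCA1 : Prop := PairQ fun ι _ _ p _ ez F1 F2 F3 o K x s r U g u v Q1 _ Q3 X =>
  ∀ y σ, 0 < σ → σ ≤ y →
    PCAf (beI p r) y σ ι (p.al U K) o K (cx K x) (fun _ _ => 0) (p.lam s r) u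
      (cA p s r U K g F1 Q1) (cb p s r U K u F3 Q3) (C1 p ez U K v F2) ≤ X * (s * 8 ^ K) * y ^ 2

/-- **LEAF: moving pair** `(Bt, Ct)`, crude. -/
def LBC1 : Prop := PairQ fun ι _ _ p _ ez F1 F2 F3 o K x s r U g u v Q1 _ Q3 X =>
  ∀ h, 0 < h → h ≤ tauI p s r →
    PBCf (beI p r) h h ι (p.al U K) o K (cx K x) (fun _ _ => 0) (p.lam s r) u
      (cA p s r U K g F1 Q1) (cb p s r U K u F3 Q3) (C1 p ez U K v F2) ≤
    X * (s * 8 ^ K) * ((p.t / r) ^ (-2 : ℝ) * (h ^ 2 * (tauI p s r / h) ^ (1 / 4 : ℝ)))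

end

end Vale.Agent.P141.H408
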