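import Vale.Agent.P141.H408.SkelTI3
import Vale.Agent.P141.H688.RawClose
import Vale.Agent.P141.H688.NumI
import Vale.Agent.P141.H401.CStF

/-!
# P141, line (A): the increasing part, numbers

* `price_one` : the price of the part with the slot `Th` at one class, third function normalised;
* `price_NT` : the same for `NT`, all class data with small fibres;
* `cstF_NT`, `cstF_NI`, `cstUV_NI` : the price of the increasing part of the definite cut families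
  from the leaves.
-/

namespace Vale.Agent.P141.H408

open Finset Matrix
open Vale.Agent.P141.PL (Pt iv ix cx)
open Vale.Agent.P141.PL.H315 (Tri)
open Vale.Agent.P141.H48 (US ES BSl)
open Vale.Agent.P141.H305 (ClsM kapM)
open Vale.Agent.P141.H401 (StQ PartQ PartY CSt cA cb mC FibU FibP DuS DvS lo CStUV Sel)
open Vale.Agent.P141.H228.Gauge (PABg PBCg CapsG TTf_leG)
open Vale.Agent.P141.H677 (KT)
open Vale.Agent.P141.H652 (NT ndT)

noncomputable section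

open scoped Classical

/-! ### The third family -/

section lin

variable {κ : Type*} [Fintype κ] [DecidableEq κ]

theorem ndT_smul (l : ℝ) (N : ℕ) (S : ℤ) (Kq : ℤ → ℕ → ℤ → Matrix κ κ ℝ) (c x0 : ℤ)
    (A : ℤ → ℤ → ℝ) (b C : ℤ → ℤ → κ → ℝ) (k : ℕ) (m : Pt) (q : ℝ) :
    ndT l N S Kq c x0 A b (fun z x => q • C z x) k m = q * ndT l N S Kq c x0 A b C k m := by
  unfold H652.ndT
  rw [mul_sum]
  refine sum_congr rfl fun z _ => ?_
  rw [mul_sum]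
  refine sum_congr rfl fun x _ => ?_
  rw [mulVec_smul, smul_dotProduct, smul_eq_mul]
  ring

theorem ndT_zero (l : ℝ) (N : ℕ) (S : ℤ) (Kq : ℤ → ℕ → ℤ → Matrix κ κ ℝ) (c x0 : ℤ)
    (A : ℤ → ℤ → ℝ) (b C : ℤ → ℤ → κ → ℝ) (k : ℕ) (m : Pt) (h : ∀ z x, C z x = 0) :
    ndT l N S Kq c x0 A b C k m = 0 := by
  unfold H652.ndT
  refine sum_eq_zero fun z _ => sum_eq_zero fun x _ => ?_
  rw [h, mulVec_zero, zero_dotProduct, mul_zero]

end lin

/-! ### Arithmetic -/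

theorem th_eq {p : H401.Num} {s r : ℝ} (ht : 0 < p.t) (hr : 1 ≤ r) :
    p.th s r = p.t * s ^ (1 / 4 : ℝ) * (p.t / r) ^ (-p.k3) := by
  have hr0 : 0 < r := by linarith
  unfold H401.Num.th
  rw [Real.div_rpow ht.le hr0.le, Real.rpow_neg hr0.le, Real.rpow_sub ht, Real.rpow_one,
    Real.rpow_neg ht.le]
  have h1 : 0 < p.t ^ p.k3 := Real.rpow_pos_of_pos ht _
  have h2 : 0 < r ^ p.k3 := Real.rpow_pos_of_pos hr0 _
  field_simp

/-- the cap of the third function is at most a power times the height -/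
theorem num_hi {t y s4 k : ℝ} (hy : 0 < y) (hy1 : y ≤ 1) (hyt : y ≤ t) (hs : 0 < s4)
    (hk : 0 < k) : 4 * (s4 * y⁻¹) ≤ 2 * y ^ (-2 : ℝ) * (2 * (t * s4 * y ^ (-k))) := by
  have h2 : 1 ≤ y ^ (-k) :=
    Real.one_le_rpow_of_pos_of_le_one_of_nonpos hy hy1 (by linarith)
  have h3 : y ^ (-2 : ℝ) * y = y⁻¹ := by
    rw [← Real.rpow_neg_one y]
    nth_rewrite 2 [← Real.rpow_one y]
    rw [← Real.rpow_add hy]
    norm_num
  have h4 : 0 < y ^ (-2 : ℝ) := Real.rpow_pos_of_pos hy _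
  have ht : 0 < t := lt_of_lt_of_le hy hyt
  calc 4 * (s4 * y⁻¹) = 4 * (y ^ (-2 : ℝ) * (y * s4)) := by rw [← h3]; ring
    _ ≤ 4 * (y ^ (-2 : ℝ) * (t * s4 * y ^ (-k))) := by
        have h5 : y * s4 ≤ t * s4 * y ^ (-k) := by
          calc y * s4 ≤ t * s4 := mul_le_mul_of_nonneg_right hyt hs.le
            _ = t * s4 * 1 := (mul_one _).symm
            _ ≤ t * s4 * y ^ (-k) := mul_le_mul_of_nonneg_left h2 (by positivity)
        exact mul_le_mul_of_nonneg_left (mul_le_mul_of_nonneg_left h5 h4.le) (by norm_num)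
    _ = _ := by ring

/-- the last level is below the cap of the third function -/
theorem num_lo {t y s4 k e0 : ℝ} (hy : 0 < y) (hy1 : y ≤ 1) (ht : 0 < t) (ht1 : t ≤ 1)
    (hs : 0 < s4) (he0 : 0 < e0) (hk : k ≤ e0 / 32) :
    y ^ (e0 / 4) * (2 * (t * s4 * y ^ (-k))) ≤ 4 * (s4 * y⁻¹) := by
  have h1 : y ^ (e0 / 4) * y ^ (-k) ≤ 1 := by
    rw [← Real.rpow_add hy]
    exact Real.rpow_le_one hy.le hy1 (by linarith)
  have h2 : 1 ≤ y⁻¹ := (one_le_inv₀ hy).2 hy1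
  calc y ^ (e0 / 4) * (2 * (t * s4 * y ^ (-k))) =
      2 * (t * s4) * (y ^ (e0 / 4) * y ^ (-k)) := by ring
    _ ≤ 2 * (t * s4) * 1 := mul_le_mul_of_nonneg_left h1 (by positivity)
    _ ≤ 4 * (s4 * 1) := by nlinarith
    _ ≤ 4 * (s4 * y⁻¹) := by
        refine mul_le_mul_of_nonneg_left (mul_le_mul_of_nonneg_left h2 hs.le) (by norm_num)

/-- the last step -/
theorem num_fin {Cf t r s ez k3 e0 : ℝ} {K : ℕ} (hC : 0 ≤ Cf) (ht : 0 < t) (hr : 1 ≤ r)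
    (hy1 : t / r ≤ 1) (hs : 0 < s) (he0 : 0 < e0) (hk : k3 ≤ e0 / 32) :
    √ez * (Cf * (s * 8 ^ K * (2 * (t * s ^ (1 / 4 : ℝ) * (t / r) ^ (-k3))) *
      (t / r) ^ (e0 / 8 - 2 * (e0 / 128)))) ≤
    2 * Cf * (t ^ (1 + e0 / 32) * s ^ (5 / 4 : ℝ) * √ez * 8 ^ K) * r ^ (-(e0 / 32)) := by
  have hr0 : 0 < r := by linarith
  have hy : 0 < t / r := div_pos ht hr0
  have h1 : (t / r) ^ (-k3) * (t / r) ^ (e0 / 8 - 2 * (e0 / 128)) ≤ (t / r) ^ (e0 / 32) := by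
    rw [← Real.rpow_add hy]
    exact Real.rpow_le_rpow_of_exponent_ge hy hy1 (by linarith)
  have h2 : (t / r) ^ (e0 / 32) = t ^ (e0 / 32) * r ^ (-(e0 / 32)) := by
    rw [Real.div_rpow ht.le hr0.le, Real.rpow_neg hr0.le, div_eq_mul_inv]
  have h3 : t ^ (1 + e0 / 32) = t * t ^ (e0 / 32) := by
    rw [Real.rpow_add ht, Real.rpow_one]
  have h4 : s ^ (5 / 4 : ℝ) = s * s ^ (1 / 4 : ℝ) := by
    rw [show (5 / 4 : ℝ) = 1 + 1 / 4 by norm_num, Real.rpow_add hs, Real.rpow_one]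
  have h5 : 0 ≤ √ez * Cf * (s * 8 ^ K * (2 * (t * s ^ (1 / 4 : ℝ)))) := by positivity
  calc √ez * (Cf * (s * 8 ^ K * (2 * (t * s ^ (1 / 4 : ℝ) * (t / r) ^ (-k3))) *
      (t / r) ^ (e0 / 8 - 2 * (e0 / 128)))) =
      √ez * Cf * (s * 8 ^ K * (2 * (t * s ^ (1 / 4 : ℝ)))) *
        ((t / r) ^ (-k3) * (t / r) ^ (e0 / 8 - 2 * (e0 / 128))) := by ring
    _ ≤ √ez * Cf * (s * 8 ^ K * (2 * (t * s ^ (1 / 4 : ℝ)))) * (t / r) ^ (e0 / 32) :=
        mul_le_mul_of_nonneg_left h1 h5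
    _ = _ := by rw [h2, h3, h4]; ring

/-! ### One class -/

/-- **The price at one class**, third function normalised. -/
theorem price_one {Cst : ℝ} (hCst : 0 ≤ Cst) (HS : StageYC Cst) {e0 δ C : ℝ} (he0 : 0 < e0)
    (hδ : 0 < δ) (hC : 0 ≤ C) : ∃ Cf : ℝ, 0 ≤ Cf ∧
    ∀ (ι : Type) [Fintype ι] [DecidableEq ι] (p : H401.Num) (n : ℕ) (ez : ℝ)
      (F1 F2 F3 : ℕ → Pt → ℝ) (o : ℤ) (K : ℕ) (x : Pt) (s r : ℝ) (U : Tri) (g : ℤ → ℤ → ℝ)
      (u v : ℤ → ℤ → ι → ℝ) (Q1 Q2 Q3 : ℕ → Pt → Prop), p.e0 = e0 → 0 < p.t → p.t ≤ 1 →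
      0 < p.k3 → p.k3 ≤ e0 / 32 → 0 < s → 1 ≤ r →
      AllG ι p n ez F1 F2 F3 o K x s r U g u v Q1 Q2 Q3 (C * (p.t / r) ^ (-δ)) →
      TTf ι (p.al U K) o K (cx K x) (fun _ _ => 0) (p.lam s r) u (cA p s r U K g F1 Q1)
        (cb p s r U K u F3 Q3) (C1 p ez U K v F2) ≤
      Cf * (s * 8 ^ K * tauI p s r * (p.t / r) ^ (e0 / 8 - 2 * δ)) := by
  obtain ⟨Cf, hCf, H⟩ := H688.raw_close (Cst := Cst) (e0 := e0) (δ := δ) (C := C) (q := 12)
    (Cc := 2) (qc := 2) hCst he0 hδ hC (by norm_num) (by norm_num) (by norm_num)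
  refine ⟨Cf, hCf, ?_⟩
  intro ι _ _ p n ez F1 F2 F3 o K x s r U g u v Q1 Q2 Q3 hpe ht ht1 hk3 hk3' hs hr hall
  obtain ⟨hcap, h1, h2, h3, h4, h5⟩ := hall
  have hr0 : 0 < r := by linarith
  have hy : 0 < p.t / r := div_pos ht hr0
  have hyt : p.t / r ≤ p.t := div_le_self ht.le hr
  have hy1 : p.t / r ≤ 1 := hyt.trans ht1
  have hτ := tauI_pos (p := p) ht hs hr
  have hl : 0 < p.lam s r := H401.Num.lam_pos ht hs hr
  have hs4 : 0 < s ^ (1 / 4 : ℝ) := Real.rpow_pos_of_pos hs _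
  have hbe : 0 < beI p r := Real.rpow_pos_of_pos hy _
  have hcC : 0 < cCI p s r := by
    unfold cCI
    positivity
  have hgI : gI p s r = (p.t / r) ^ (e0 / 4) * tauI p s r := by
    unfold gI
    rw [hpe]
  have hτe : tauI p s r = 2 * (p.t * s ^ (1 / 4 : ℝ) * (p.t / r) ^ (-p.k3)) := by
    unfold tauI
    rw [th_eq ht hr]
  have hhi : cCI p s r ≤ 2 * (p.t / r) ^ (-(2 : ℝ)) * tauI p s r := by
    rw [hτe]
    exact num_hi hy hy1 hyt hs4 hk3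
  have hlo : (p.t / r) ^ (e0 / 4) * tauI p s r ≤ cCI p s r := by
    rw [hτe]
    exact num_lo hy hy1 ht ht1 hs4 he0 hk3'
  have h2' : ∀ z, (p.t / r) ^ (e0 / 4) * tauI p s r ≤ z → z ≤ cCI p s r →
      PCAf (beI p r) z (tauI p s r) ι (p.al U K) o K (cx K x) (fun _ _ => 0) (p.lam s r) u
        (cA p s r U K g F1 Q1) (cb p s r U K u F3 Q3) (C1 p ez U K v F2) ≤
      C * (p.t / r) ^ (-δ) * (s * 8 ^ K) * ((p.t / r) ^ (e0 / 4) * (tauI p s r * z)) := by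
    intro z hz hz'
    have h := h2 z (hgI.trans_le hz) hz'
    rwa [hpe] at h
  have h3' : ∀ z, (p.t / r) ^ (e0 / 4) * tauI p s r ≤ z → z ≤ cCI p s r →
      PBCg (beI p r) (tauI p s r) z ι (p.al U K) o K (cx K x) (fun _ _ => 0) (p.lam s r) u
        (cA p s r U K g F1 Q1) (cb p s r U K u F3 Q3) (C1 p ez U K v F2) ≤
      C * (p.t / r) ^ (-δ) * (s * 8 ^ K) * (tauI p s r * z) :=
    fun z hz hz' => h3 z (hgI.trans_le hz) hz'
  have hnn : ∀ z w, 0 < z → 0 < w →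
      0 ≤ PCAf (beI p r) z w ι (p.al U K) o K (cx K x) (fun _ _ => 0) (p.lam s r) u
        (cA p s r U K g F1 Q1) (cb p s r U K u F3 Q3) (C1 p ez U K v F2) := by
    intro z w hz hw
    unfold PCAf SN
    exact sum_nonneg fun _ _ => sum_nonneg fun _ _ => sum_nonneg fun _ _ =>
      sum_nonneg fun _ _ => H688.rCA_nonneg _ _ _ _ hz hw
  exact H (p.t / r) (s * 8 ^ K) (tauI p s r) (cCI p s r) _
    (fun h => PABg h ι (p.al U K) o K (cx K x) (fun _ _ => 0) (p.lam s r) u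
      (cA p s r U K g F1 Q1) (cb p s r U K u F3 Q3) (C1 p ez U K v F2))
    (fun y z => PBCg (beI p r) y z ι (p.al U K) o K (cx K x) (fun _ _ => 0) (p.lam s r) u
      (cA p s r U K g F1 Q1) (cb p s r U K u F3 Q3) (C1 p ez U K v F2))
    (fun z w => PCAf (beI p r) z w ι (p.al U K) o K (cx K x) (fun _ _ => 0) (p.lam s r) u
      (cA p s r U K g F1 Q1) (cb p s r U K u F3 Q3) (C1 p ez U K v F2))
    hy hy1 (by positivity) hτ hcC hhi hlo hnn h1 h2' h3' h4 h5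
    (fun P₀ P₁ QA QB Z κ' g σ e₂ D L₀ L₁ a1 a2 a3 a4 a5 a6 a7 a8 a9 a10 a11 a12 a13 a14 a15 a16
      a17 => TTf_leG HS hbe hl hτ hcC a1 a2 a3 a4 a5 a6 a7 a8 a9 a10 hcap a11 a12 a13 a14 a15
        a16 a17)

/-! ### All classes -/

/-- the normalised third family -/
theorem mC_eq {ι : Type} [Fintype ι] [DecidableEq ι] (p : H401.Num) {ez : ℝ} (hez : 0 < ez)
    (U : Tri) (K : ℕ) (v : ℤ → ℤ → ι → ℝ) (F2 : ℕ → Pt → ℝ) (x0 : ℤ) (k : ℕ) :
    mC p U K v F2 x0 k = fun z x => √ez • C1 p ez U K v F2 x0 k z x := by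
  have h : √ez ≠ 0 := (Real.sqrt_pos.2 hez).ne'
  funext z x
  unfold C1
  rw [smul_smul, mul_inv_cancel₀ h, one_smul]

/-- `NT` by the normalised third family -/
theorem NT_eq {ι : Type} [Fintype ι] [DecidableEq ι] (p : H401.Num) {ez : ℝ} (hez : 0 < ez)
    (U : Tri) (K : ℕ) (x : Pt) (l : ℝ) (o : ℤ) (u v : ℤ → ℤ → ι → ℝ) (F2 : ℕ → Pt → ℝ)
    (A : ℤ → ℕ → ℤ → ℤ → ℝ) (b : ℤ → ℕ → ℤ → ℤ → ι → ℝ) (sg : ℕ → Pt → ℝ) :
    NT ι l o (p.al U K) K x u A b (mC p U K v F2) sg =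
      √ez * TTf ι (p.al U K) o K (cx K x) (fun _ _ => 0) l u A b (C1 p ez U K v F2) := by
  have h0 : 0 ≤ √ez := Real.sqrt_nonneg _
  unfold H652.NT H401.NS TTf SN
  rw [mul_sum]
  refine sum_congr rfl fun t _ => ?_
  rw [mul_sum]
  refine sum_congr rfl fun x0 _ => ?_
  rw [mul_sum]
  refine sum_congr rfl fun k _ => ?_
  rw [mul_sum]
  refine sum_congr rfl fun m _ => ?_
  beta_reduce
  rw [mC_eq p hez, ndT_smul, abs_mul, abs_of_nonneg h0]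
  rfl

/-- no third function: nothing to pay -/
theorem NT_zero' {ι : Type} [Fintype ι] [DecidableEq ι] {p : H401.Num} {n : ℕ} {Q2 : ℕ → Pt → Prop}
    {F2 : ℕ → Pt → ℝ} (q2 : BSl n 0 p.cP F2 Q2) {K : ℕ} (hKn : K ≤ n) (U : Tri) (x : Pt) (l : ℝ)
    (o : ℤ) (u v : ℤ → ℤ → ι → ℝ) (A : ℤ → ℕ → ℤ → ℤ → ℝ) (b : ℤ → ℕ → ℤ → ℤ → ι → ℝ)
    (sg : ℕ → Pt → ℝ) : NT ι l o (p.al U K) K x u A b (mC p U K v F2) sg = 0 := by
  unfold H652.NT H401.NS
  refine sum_eq_zero fun t' _ => sum_eq_zero fun x0 _ => sum_eq_zero fun k hk =>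
    sum_eq_zero fun m _ => ?_
  have hz : ∀ z w, mC p U K v F2 x0 k z w = 0 := by
    intro z w
    have h1 := H652.line_kF (Λ := p.Lm) (a := U.2.1) hKn q2 hk (ix k x0) w z
    rw [zero_mul] at h1
    have h2 := (sum_eq_zero_iff_of_nonneg fun _ _ => sq_nonneg _).1
      (le_antisymm h1 (sum_nonneg fun _ _ => sq_nonneg _)) x0 (PL.mem_iv.2 rfl)
    have h3 : H677.kF p.Lm U.2.1 K F2 k (x0, w, z) = 0 := by
      simpa using h2
    unfold H401.mC H677.fC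
    rw [h3, zero_smul]
  show |ndT l K (ix K x.2.1) (KT l u) (o - 2) x0 (A x0 k) (b x0 k) (mC p U K v F2 x0 k) k m| = 0
  rw [ndT_zero _ _ _ _ _ _ _ _ _ _ _ hz, abs_zero]

/-- **The price of the part with the slot `Th`**, class data with small fibres. -/
theorem price_NT (HS : StageY1) (H : PairU AllG) : H401.CStF NT := by
  obtain ⟨Cst, hCst, HS⟩ := HS
  unfold H401.CStF PartQ H401.FibQ
  intro a ha ha1
  obtain ⟨es, hes, H⟩ := H a ha ha1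
  refine ⟨es, hes, fun e0 he0 he0' => ?_⟩
  obtain ⟨k8s, hk8s, H⟩ := H e0 he0 he0'
  refine ⟨k8s, hk8s, fun k8 hk8 hk8' => ?_⟩
  obtain ⟨k3s, hk3s, H⟩ := H k8 hk8 hk8'
  refine ⟨min k3s (e0 / 32), lt_min hk3s (by positivity), fun k3 hk3 hk3' => ?_⟩
  have hk3e : k3 ≤ e0 / 32 := hk3'.trans (min_le_right _ _)
  have hδ : 0 < e0 / 128 := by positivity
  obtain ⟨c1, d0, hc1, hd0, H⟩ := H k3 hk3 (hk3'.trans (min_le_left _ _)) (e0 / 128) hδ
  refine ⟨e0 / 32, c1, d0, e0 / 32, by positivity, hc1, hd0, by positivity,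
    fun c hc hcc d hd hdd Kt e cP L hK he hcP hL => ?_⟩
  obtain ⟨C, hC, H⟩ := H c hc hcc d hd hdd Kt e cP L hK he hcP hL
  obtain ⟨Cf, hCf, HP⟩ := price_one hCst HS he0 hδ hC
  refine ⟨1, le_rfl, 2 * Cf, by positivity, ?_⟩
  intro t ht ht1 n ez F1 F2 F3 hf1 hf3 hf2 o ho K hKn x ι _ _ s r U g u v hs hr hcls Q1 Q2 Q3 q1 q2
    q3 f1 f2 sg _
  have hr0 : 0 < r := by linarith
  set p : H401.Num := ⟨a, e0, k8, k3, c, d, Kt, e, cP, L, 1, t⟩ with hp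
  rcases hf2.1.eq_or_lt with hez | hez
  · subst hez
    rw [NT_zero' (p := p) q2 hKn]
    positivity
  · have hall := H t ht ht1 n ez F1 F2 F3 hf1 hf3 hf2 o ho K hKn x ι s r U g u v hs hr hcls Q1 Q2
      Q3 q1 q2 q3 hez f1 f2
    have h1 := HP ι p n ez F1 F2 F3 o K x s r U g u v Q1 Q2 Q3 rfl ht ht1 hk3 hk3e hs hr hall
    rw [NT_eq p hez]
    have hy1 : t / r ≤ 1 := (div_le_self ht.le hr).trans ht1
    have h2 : tauI p s r = 2 * (t * s ^ (1 / 4 : ℝ) * (t / r) ^ (-k3)) := by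
      unfold tauI
      rw [th_eq (p := p) ht hr]
    rw [h2] at h1
    exact (mul_le_mul_of_nonneg_left h1 (Real.sqrt_nonneg _)).trans
      (num_fin hCf ht hr hy1 hs he0 hk3e)

/-- **The part with the slot `Th` from the leaves.** -/
theorem cstF_NT (HS : StageY1) (h0 : LCapG) (h1 : LABg) (h2 : LCAu) (h3 : LBCg) (h4 : LCA1u)
    (h5 : LBC1g) : H401.CStF NT :=
  price_NT HS (all_leavesG h0 h1 h2 h3 h4 h5)

/-- **The increasing part from the leaves.** -/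
theorem cstF_NI (HS : StageY1) (h0 : LCapG) (h1 : LABg) (h2 : LCAu) (h3 : LBCg) (h4 : LCA1u)
    (h5 : LBC1g) : H401.CStF H401.NI :=
  H401.cstF_NI (cstF_NT HS h0 h1 h2 h3 h4 h5)

/-- **The increasing part of the data with the dense fibres cut off.** -/
theorem cstUV_NI (HS : StageY1) (h0 : LCapG) (h1 : LABg) (h2 : LCAu) (h3 : LBCg) (h4 : LCA1u)
    (h5 : LBC1g) : CStUV DuS DvS H401.NI :=
  (cstF_NI HS h0 h1 h2 h3 h4 h5).toUV

end

end Vale.Agent.P141.H408
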